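import Mathlib

/-!
A random colouring of the pieces: the indicators `[σ k = σ l]` are pairwise uncorrelated.
-/

namespace Vale.Agent.P078

open scoped ComplexConjugate

variable {K r : ℕ}

/-- The mean of `[σ k = σ l]`. -/
noncomputable def meanI (r : ℕ) (k l : Fin K) : ℝ := if k = l then 1 else (r : ℝ)⁻¹

/-- The centred indicator. -/
noncomputable def dev (σ : Fin K → Fin r) (k l : Fin K) : ℝ :=
  (if σ k = σ l then 1 else 0) - meanI r k l

theorem abs_dev_le (hr : 0 < r) (σ : Fin K → Fin r) (k l : Fin K) : |dev σ k l| ≤ 1 := by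
  have h0 : (0 : ℝ) < r := by exact_mod_cast hr
  have h1 : (r : ℝ)⁻¹ ≤ 1 := inv_le_one_of_one_le₀ (by exact_mod_cast hr)
  have h2 : 0 ≤ (r : ℝ)⁻¹ := by positivity
  simp only [dev, meanI]
  split_ifs <;> rw [abs_le] <;> constructor <;> linarith

theorem sum_dev_mul (hr : 0 < r) (k l k' l' : Fin K) (hkl : k ≠ l) (hk1 : k ≠ k') (hk2 : k ≠ l') :
    ∑ σ : Fin K → Fin r, dev σ k l * dev σ k' l' = 0 := by
  classical
  rw [← (Equiv.funSplitAt k (Fin r)).symm.sum_comp, Fintype.sum_prod_type, Finset.sum_comm]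
  refine Finset.sum_eq_zero fun rest _ => ?_
  have e : ∀ (c : Fin r) (i : Fin K) (hi : i ≠ k),
      (Equiv.funSplitAt k (Fin r)).symm (c, rest) i = rest ⟨i, hi⟩ := fun c i hi => by
    simp [Equiv.funSplitAt, Equiv.piSplitAt, hi]
  have ek : ∀ c : Fin r, (Equiv.funSplitAt k (Fin r)).symm (c, rest) k = c := fun c => by
    simp [Equiv.funSplitAt, Equiv.piSplitAt]
  simp only [dev, meanI, ek, e _ l hkl.symm, e _ k' hk1.symm, e _ l' hk2.symm, if_neg hkl]
  rw [← Finset.sum_mul, Finset.sum_sub_distrib, Finset.sum_ite_eq' Finset.univ]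
  have h0 : (r : ℝ) ≠ 0 := by exact_mod_cast hr.ne'
  simp [h0]

theorem dev_comm (σ : Fin K → Fin r) (k l : Fin K) : dev σ k l = dev σ l k := by
  simp only [dev, meanI, eq_comm]

theorem dev_self (σ : Fin K → Fin r) (k : Fin K) : dev σ k k = 0 := by
  simp [dev, meanI]

theorem sum_dev_mul_le (hr : 0 < r) (p q : Fin K × Fin K) :
    |∑ σ : Fin K → Fin r, dev σ p.1 p.2 * dev σ q.1 q.2| ≤
      (if q = p ∨ q = p.swap then (Fintype.card (Fin K → Fin r) : ℝ) else 0) := by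
  classical
  obtain ⟨k, l⟩ := p
  obtain ⟨k', l'⟩ := q
  split_ifs with h
  · refine (Finset.abs_sum_le_sum_abs _ _).trans ?_
    refine (Finset.sum_le_card_nsmul _ _ (1 : ℝ) fun σ _ => ?_).trans (by simp)
    rw [abs_mul]
    exact mul_le_one₀ (abs_dev_le hr σ k l) (abs_nonneg _) (abs_dev_le hr σ k' l')
  · suffices hsum : ∑ σ : Fin K → Fin r, dev σ k l * dev σ k' l' = 0 by rw [hsum, abs_zero]
    by_cases hkl : k = l
    · subst hkl; simp [dev_self]
    by_cases hkl' : k' = l'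
    · subst hkl'; simp [dev_self]
    by_cases h1 : k ≠ k' ∧ k ≠ l'
    · exact sum_dev_mul hr k l k' l' hkl h1.1 h1.2
    by_cases h2 : l ≠ k' ∧ l ≠ l'
    · simp only [dev_comm _ k l]
      exact sum_dev_mul hr l k k' l' (Ne.symm hkl) h2.1 h2.2
    exfalso
    simp only [Prod.mk.injEq, Prod.swap_prod_mk, not_or] at h
    rcases Classical.em (k = k') with rfl | hk
    · have hl : l = l' := by
        by_contra hl
        exact h2 ⟨Ne.symm hkl, hl⟩
      exact h.1 ⟨rfl, hl.symm⟩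
    · have hk' : k = l' := by
        by_contra hk'
        exact h1 ⟨hk, hk'⟩
      subst hk'
      have hl : l = k' := by
        by_contra hl
        exact h2 ⟨hl, Ne.symm hkl⟩
      exact h.2 ⟨hl.symm, rfl⟩

/-- Second moment of a linear form in the centred indicators. -/
theorem sum_sq_dev_le (hr : 0 < r) (c : Fin K → Fin K → ℂ) :
    ∑ σ : Fin K → Fin r, ‖∑ k, ∑ l, c k l * (dev σ k l : ℂ)‖ ^ 2 ≤
      2 * (Fintype.card (Fin K → Fin r) : ℝ) * ∑ k, ∑ l, ‖c k l‖ ^ 2 := by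
  classical
  set C : Fin K × Fin K → ℂ := fun p => c p.1 p.2
  set N : ℝ := (Fintype.card (Fin K → Fin r) : ℝ)
  have hexp : ∀ σ : Fin K → Fin r, ‖∑ k, ∑ l, c k l * (dev σ k l : ℂ)‖ ^ 2 =
      ∑ p, ∑ q, (conj (C p) * C q).re * (dev σ p.1 p.2 * dev σ q.1 q.2) := by
    intro σ
    rw [show (∑ k, ∑ l, c k l * (dev σ k l : ℂ)) = ∑ p, C p * (dev σ p.1 p.2 : ℂ) from
      (Fintype.sum_prod_type (fun p : Fin K × Fin K => c p.1 p.2 * (dev σ p.1 p.2 : ℂ))).symm]
    rw [← Complex.normSq_eq_norm_sq, ← Complex.ofReal_re (Complex.normSq _),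
      Complex.normSq_eq_conj_mul_self, map_sum, Finset.sum_mul, Complex.re_sum]
    refine Finset.sum_congr rfl fun p _ => ?_
    rw [Finset.mul_sum, Complex.re_sum]
    refine Finset.sum_congr rfl fun q _ => ?_
    rw [map_mul, Complex.conj_ofReal, ← Complex.re_mul_ofReal]
    push_cast
    ring_nf
  simp only [hexp]
  rw [Finset.sum_comm]
  simp only [Finset.sum_comm (γ := Fin K → Fin r), ← Finset.mul_sum]
  have hle : ∀ p q, (conj (C p) * C q).re *
      (∑ σ : Fin K → Fin r, dev σ p.1 p.2 * dev σ q.1 q.2) ≤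
      (if q = p then N * (‖C p‖ * ‖C q‖) else 0) +
        (if q = p.swap then N * (‖C p‖ * ‖C q‖) else 0) := by
    intro p q
    have h1 : |(conj (C p) * C q).re| ≤ ‖C p‖ * ‖C q‖ :=
      (Complex.abs_re_le_norm _).trans (le_of_eq (by rw [norm_mul, Complex.norm_conj]))
    have h2 := sum_dev_mul_le hr p q
    refine (le_abs_self _).trans ?_
    rw [abs_mul]
    refine (mul_le_mul h1 h2 (abs_nonneg _) (by positivity)).trans ?_
    have : 0 ≤ N * (‖C p‖ * ‖C q‖) := by positivity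
    by_cases ha : q = p <;> by_cases hb : q = p.swap
    · rw [if_pos (Or.inl ha), if_pos ha, if_pos hb]; linarith
    · rw [if_pos (Or.inl ha), if_pos ha, if_neg hb]; linarith
    · rw [if_pos (Or.inr hb), if_neg ha, if_pos hb]; linarith
    · rw [if_neg (not_or.2 ⟨ha, hb⟩), if_neg ha, if_neg hb]; linarith
  refine (Finset.sum_le_sum fun p _ => Finset.sum_le_sum fun q _ => hle p q).trans ?_
  simp only [Finset.sum_add_distrib, Finset.sum_ite_eq', Finset.mem_univ, if_true]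
  rw [show (∑ k, ∑ l, ‖c k l‖ ^ 2) = ∑ p, ‖C p‖ ^ 2 from
    (Fintype.sum_prod_type (fun p : Fin K × Fin K => ‖C p‖ ^ 2)).symm]
  have hswap : ∑ p : Fin K × Fin K, ‖C p.swap‖ ^ 2 = ∑ p, ‖C p‖ ^ 2 :=
    (Equiv.prodComm (Fin K) (Fin K)).sum_comp fun p => ‖C p‖ ^ 2
  have hN : 0 ≤ N := Nat.cast_nonneg _
  calc _ ≤ (∑ p, N * ‖C p‖ ^ 2) + ∑ p, N * ((‖C p‖ ^ 2 + ‖C p.swap‖ ^ 2) / 2) :=
        add_le_add (le_of_eq (Finset.sum_congr rfl fun p _ => by rw [sq]))
          (Finset.sum_le_sum fun p _ => mul_le_mul_of_nonneg_left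
            (by nlinarith [sq_nonneg (‖C p‖ - ‖C p.swap‖)]) hN)
    _ = _ := by
        rw [← Finset.mul_sum, ← Finset.mul_sum, ← Finset.sum_div, Finset.sum_add_distrib, hswap]
        ring

end Vale.Agent.P078
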