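import Vale.Agent.P078.Parts

/-!
An operator commuting with all projections of an abelian von Neumann algebra commutes with all of
the algebra: spectral projections as closures of ranges.
-/

namespace Vale.Agent.P078

open scoped InnerProductSpace

variable {H : Type} [NormedAddCommGroup H] [InnerProductSpace ℂ H] [CompleteSpace H]

theorem cfc_mem {A : VonNeumannAlgebra H} {y : H →L[ℂ] H} (hy : y ∈ A) (f : ℝ → ℝ) :
    cfc f y ∈ A := by
  refine mem_of_forall_commute A fun z hz => ?_
  have h : Commute y z := commutant_commute hz hy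
  exact (h.cfc_real f).eq.symm

/-- The spectral projection above `t`: support of `(y - t)₊`. -/
noncomputable def spProj (y : H →L[ℂ] H) (t : ℝ) : H →L[ℂ] H :=
  (cfc (fun x : ℝ => max (x - t) 0) y).range.topologicalClosure.starProjection

variable {A : VonNeumannAlgebra H}

theorem isPr_spProj {y : H →L[ℂ] H} (hy : y ∈ A) (t : ℝ) : IsPr A (spProj y t) := by
  refine ⟨proj_mem A _ fun z hz v hv => closure_invariant ?_ hv, isStarProjection_starProjection⟩
  rintro _ ⟨w, rfl⟩
  refine ⟨z w, ?_⟩
  show cfc _ y (z w) = z (cfc _ y w)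
  rw [← mul_apply_eq_comp, commutant_commute hz (cfc_mem hy _), mul_apply_eq_comp]

theorem spProj_mul (y : H →L[ℂ] H) (t : ℝ) :
    spProj y t * cfc (fun x : ℝ => max (x - t) 0) y = cfc (fun x : ℝ => max (x - t) 0) y :=
  ContinuousLinearMap.ext fun v => Submodule.starProjection_eq_self_iff.2
    (Submodule.le_topologicalClosure _ (LinearMap.mem_range_self _ v))

theorem mul_spProj_eq_zero {y z : H →L[ℂ] H} {t : ℝ}
    (h : z * cfc (fun x : ℝ => max (x - t) 0) y = 0) : z * spProj y t = 0 := by
  have hk : (cfc (fun x : ℝ => max (x - t) 0) y).range.topologicalClosure ≤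
      LinearMap.ker z.toLinearMap := by
    refine Submodule.topologicalClosure_minimal _ ?_ z.isClosed_ker
    rintro _ ⟨w, rfl⟩
    exact DFunLike.congr_fun h w
  exact ContinuousLinearMap.ext fun v => hk (Submodule.starProjection_apply_mem _ v)

theorem commute_of_proj_selfAdjoint (hab : ∀ y ∈ A, ∀ z ∈ A, y * z = z * y) {a y : H →L[ℂ] H}
    (ha : ∀ e, IsPr A e → e * a = a * e) (hy : y ∈ A) (hsa : IsSelfAdjoint y) :
    y * a = a * y := by
  rw [← sub_eq_zero, ← norm_le_zero_iff]
  refine le_of_forall_gt_imp_ge_of_dense fun δ hδ => ?_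
  obtain ⟨h, hh, hhδ⟩ : ∃ h : ℝ, 0 < h ∧ 2 * ‖a‖ * h ≤ δ :=
    ⟨δ / (2 * ‖a‖ + 1), by positivity, by
      rw [mul_div_assoc', div_le_iff₀ (by positivity)]; nlinarith [norm_nonneg a]⟩
  set R : ℝ := ‖y‖ + h with hR
  obtain ⟨N, hN⟩ := exists_nat_gt (2 * R / h)
  rw [div_lt_iff₀ hh] at hN
  set t : ℕ → ℝ := fun j => -R + j * h with ht
  set g : ℕ → (H →L[ℂ] H) := fun j => cfc (fun x : ℝ => max (x - t j) 0) y with hgdef
  set p : ℕ → (H →L[ℂ] H) := fun j => spProj y (t j) with hpdef
  have hpA : ∀ j, IsPr A (p j) := fun j => isPr_spProj hy _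
  have hgA : ∀ j, g j ∈ A := fun j => cfc_mem hy _
  have hspec : ∀ x ∈ spectrum ℝ y, |x| ≤ ‖y‖ := fun x hx =>
    ((Real.norm_eq_abs x).symm.le.trans (spectrum.norm_le_norm_mul_of_mem hx)).trans
      (mul_le_of_le_one_right (norm_nonneg _) ContinuousLinearMap.norm_id_le)
  have hpg : ∀ j, p j * g j = g j := fun j => spProj_mul y _
  have hgg : ∀ j, p j * g (j + 1) = g (j + 1) := by
    intro j
    have hk : g (j + 1) = g j *
        cfc (fun x : ℝ => max (x - t (j + 1)) 0 / max (x - t j) h) y := by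
      have hc : ContinuousOn (fun x : ℝ => max (x - t (j + 1)) 0 / max (x - t j) h)
          (spectrum ℝ y) := ContinuousOn.div (by fun_prop) (by fun_prop)
            fun x _ => (lt_max_of_lt_right hh).ne'
      simp only [hgdef]
      rw [← cfc_mul _ _ y (by fun_prop) hc]
      refine cfc_congr fun x _ => ?_
      have e : t (j + 1) = t j + h := by simp [ht]; ring
      rcases le_total (x - t (j + 1)) 0 with hx | hx
      · simp [max_eq_right hx]
      · have h1 : max (x - t j) h = x - t j := max_eq_left (by linarith)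
        have h2 : 0 < x - t j := by linarith
        rw [max_eq_left hx, max_eq_left h2.le, h1, mul_div_cancel₀ _ h2.ne']
    rw [hk, ← mul_assoc, hpg]
  have hcap : ∀ j, cfc (fun x : ℝ =>
      h - (max (x - t j) 0 - max (x - t (j + 1)) 0)) y * g (j + 1) = 0 := by
    intro j
    simp only [hgdef]
    rw [← cfc_mul _ _ y (by fun_prop) (by fun_prop)]
    rw [show (0 : H →L[ℂ] H) = cfc (fun _ : ℝ => (0 : ℝ)) y from (cfc_const_zero ℝ y).symm]
    refine cfc_congr fun x _ => ?_
    have e : t (j + 1) = t j + h := by simp [ht]; ring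
    rcases le_total (x - t (j + 1)) 0 with hx | hx
    · simp [max_eq_right hx]
    · rw [max_eq_left hx, max_eq_left (by linarith : 0 ≤ x - t j), e]; ring
  set d : ℕ → (H →L[ℂ] H) := fun j => g j - g (j + 1) with hd
  have hdh : ∀ j, d j * p (j + 1) = h • p (j + 1) := by
    intro j
    have h1 := mul_spProj_eq_zero (hcap j)
    rw [cfc_sub _ _ y (by fun_prop) (by fun_prop), cfc_sub _ _ y (by fun_prop) (by fun_prop),
      cfc_const h y, sub_mul, sub_eq_zero, Algebra.algebraMap_eq_smul_one, smul_mul_assoc,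
      one_mul] at h1
    exact h1.symm
  have hdp : ∀ j, d j * p j = d j := by
    intro j
    rw [hab _ (sub_mem (hgA _) (hgA _)) _ (hpA j).1, hd, mul_sub, hpg, hgg]
  have hdec : ∀ j, p (j + 1) * p j = p (j + 1) := by
    intro j
    have h1 : (1 - p j) * p (j + 1) = 0 :=
      mul_spProj_eq_zero (by show (1 - p j) * g (j + 1) = 0; rw [sub_mul, one_mul, hgg, sub_self])
    rw [sub_mul, one_mul, sub_eq_zero] at h1
    rw [hab _ (hpA (j + 1)).1 _ (hpA j).1, ← h1]
  have hdec' : ∀ j k, j ≤ k → p k * p j = p k := by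
    intro j k hjk
    induction hjk with
    | refl => exact (hpA j).2.isIdempotentElem.eq
    | @step k _ ih =>
        calc p (k + 1) * p j = p (k + 1) * p k * p j := by rw [hdec]
          _ = p (k + 1) := by rw [mul_assoc, ih, hdec]
  have hR0 : 0 ≤ R := by positivity
  have hp0 : p 0 = 1 := by
    have h1 : cfc (fun x : ℝ => (max (x - t 0) 0)⁻¹) y * g 0 = 1 := by
      simp only [hgdef]
      have hne : ∀ x ∈ spectrum ℝ y, max (x - t 0) 0 ≠ 0 := fun x hx => by
        have := abs_le.1 (hspec x hx)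
        simp [ht, hR]
        linarith
      have hc : ContinuousOn (fun x : ℝ => (max (x - t 0) 0)⁻¹) (spectrum ℝ y) :=
        ContinuousOn.inv₀ (f := fun x : ℝ => max (x - t 0) 0) (by fun_prop) hne
      rw [← cfc_mul _ _ y hc (by fun_prop), ← cfc_const_one ℝ y]
      refine cfc_congr fun x hx => inv_mul_cancel₀ (hne x hx)
    have h3 : (1 - p 0) * g 0 = 0 := by rw [sub_mul, one_mul, hpg, sub_self]
    have h4 : cfc (fun x : ℝ => (max (x - t 0) 0)⁻¹) y * g 0 = g 0 * cfc _ y :=
      hab _ (cfc_mem hy _) _ (hgA 0)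
    rw [h1] at h4
    have := congrArg (fun z => z * cfc (fun x : ℝ => (max (x - t 0) 0)⁻¹) y) h3
    simp only [mul_assoc, zero_mul] at this
    rw [← h4, mul_one, sub_eq_zero] at this
    exact this.symm
  have hgN : g N = 0 := by
    simp only [hgdef]
    rw [show (0 : H →L[ℂ] H) = cfc (fun _ : ℝ => (0 : ℝ)) y from (cfc_const_zero ℝ y).symm]
    refine cfc_congr fun x hx => max_eq_right ?_
    have := abs_le.1 (hspec x hx)
    simp [ht, hR] at hN ⊢
    linarith
  have hpN : p N = 0 := by
    have := mul_spProj_eq_zero (z := 1) (y := y) (t := t N) (by show 1 * g N = 0; rw [hgN, mul_zero])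
    simpa using this
  set q : Fin N → (H →L[ℂ] H) := fun j => p j - p (j + 1) with hq
  have hqP : IsPart A q := by
    refine ⟨fun j => isPr_sub hab (hpA _) (hpA _) (hdec j), fun j k hjk => ?_, ?_⟩
    · rcases lt_or_gt_of_ne (fun e => hjk (Fin.ext e)) with hlt | hgt
      · simp only [hq, sub_mul, mul_sub]
        rw [hab _ (hpA j).1 _ (hpA k).1, hab _ (hpA j).1 _ (hpA (k + 1)).1,
          hab _ (hpA (j + 1)).1 _ (hpA k).1, hab _ (hpA (j + 1)).1 _ (hpA (k + 1)).1,
          hdec' _ _ hlt.le, hdec' _ _ hlt, hdec' j (k + 1) (by omega),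
          hdec' (j + 1) (k + 1) (by omega)]
        abel
      · simp only [hq, sub_mul, mul_sub]
        rw [hdec' _ _ hgt.le, hdec' _ _ hgt, hdec' k (j + 1) (by omega),
          hdec' (k + 1) (j + 1) (by omega)]
        abel
    · rw [hq, Fin.sum_univ_eq_sum_range (fun j => p j - p (j + 1)), Finset.sum_range_sub', hp0,
        hpN, sub_zero]
  set X := g 0 - h • ∑ j ∈ Finset.range N, p (j + 1) with hX
  have hXsum : X = ∑ j : Fin N, q j * (d j * q j) := by
    have hterm : ∀ j : Fin N, q j * (d j * q j) = d j - h • p (j + 1) := fun j => by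
      have hA : d j ∈ A := sub_mem (hgA _) (hgA _)
      rw [← mul_assoc, hab _ (hqP.1 j).1 _ hA, mul_assoc, (hqP.1 j).2.isIdempotentElem.eq, hq,
        mul_sub, hdp, hdh]
    simp only [hterm]
    rw [Fin.sum_univ_eq_sum_range (fun j => d j - h • p (j + 1)), Finset.sum_sub_distrib,
      ← Finset.smul_sum, hd, Finset.sum_range_sub', hgN, sub_zero]
  have hXn : ‖X‖ ≤ h := by
    refine ContinuousLinearMap.opNorm_le_bound _ hh.le fun v => ?_
    refine le_of_sq_le_sq ?_ (by positivity)
    rw [hXsum, sum_apply]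
    simp only [mul_apply_eq_comp]
    rw [hqP.norm_sum_sq fun j => d j (q j v), mul_pow, ← hqP.sum_norm_sq v, Finset.mul_sum]
    refine Finset.sum_le_sum fun j _ => ?_
    rw [← mul_pow]
    refine pow_le_pow_left₀ (norm_nonneg _) ?_ 2
    refine ((q j).le_of_opNorm_le (hqP.1 j).2.norm_le _).trans ?_
    rw [one_mul]
    refine (d j).le_of_opNorm_le ?_ _
    simp only [hd, hgdef]
    rw [← cfc_sub _ _ y (by fun_prop) (by fun_prop)]
    refine norm_cfc_le hh.le fun x _ => ?_
    have e : t (j + 1) = t j + h := by simp [ht]; ring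
    rw [Real.norm_eq_abs, abs_le]
    rcases le_total (x - t j) 0 with h1 | h1 <;> rcases le_total (x - t (j + 1)) 0 with h2 | h2 <;>
      simp [h1, h2] <;> (try constructor) <;> linarith
  have hyg : y = g 0 + (t 0) • (1 : H →L[ℂ] H) := by
    have : g 0 = y - (t 0) • (1 : H →L[ℂ] H) := by
      simp only [hgdef]
      rw [cfc_congr (g := fun x : ℝ => x - t 0) fun x hx => max_eq_left (by
        have := abs_le.1 (hspec x hx)
        simp [ht, hR]
        linarith), cfc_sub _ _ y (by fun_prop) (by fun_prop), cfc_id' ℝ y,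
        cfc_const (t 0) y, Algebra.algebraMap_eq_smul_one]
    rw [this, sub_add_cancel]
  have hPa : (h • ∑ j ∈ Finset.range N, p (j + 1)) * a =
      a * (h • ∑ j ∈ Finset.range N, p (j + 1)) := by
    simp only [smul_mul_assoc, mul_smul_comm, Finset.sum_mul, Finset.mul_sum]
    exact congrArg _ (Finset.sum_congr rfl fun j _ => ha _ (hpA _))
  have : y * a - a * y = X * a - a * X := by
    rw [hyg, hX, sub_mul, mul_sub, hPa]
    simp only [add_mul, mul_add, smul_mul_assoc, one_mul, mul_smul_comm, mul_one]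
    abel
  rw [this]
  calc ‖X * a - a * X‖ ≤ ‖X * a‖ + ‖a * X‖ := norm_sub_le _ _
    _ ≤ h * ‖a‖ + ‖a‖ * h := add_le_add ((norm_mul_le _ _).trans (by gcongr))
        ((norm_mul_le _ _).trans (by gcongr))
    _ ≤ δ := by linarith

theorem commute_of_proj (hab : ∀ y ∈ A, ∀ z ∈ A, y * z = z * y) {a : H →L[ℂ] H}
    (ha : ∀ e, IsPr A e → e * a = a * e) {y : H →L[ℂ] H} (hy : y ∈ A) : y * a = a * y := by
  have h1 := commute_of_proj_selfAdjoint hab ha (add_mem hy (star_mem hy))
    (IsSelfAdjoint.add_star_self y)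
  have hm : Complex.I • (y - star y) ∈ A.toStarSubalgebra :=
    A.toStarSubalgebra.smul_mem (sub_mem hy (star_mem hy)) Complex.I
  have h2 := commute_of_proj_selfAdjoint hab ha (y := Complex.I • (y - star y)) hm
    (by simp [IsSelfAdjoint, star_smul, smul_sub, neg_add_eq_sub])
  simp only [add_mul, mul_add] at h1
  rw [smul_mul_assoc, mul_smul_comm] at h2
  have h3 := smul_right_injective (H →L[ℂ] H) Complex.I_ne_zero h2
  simp only [sub_mul, mul_sub] at h3
  have := congrArg₂ (· + ·) h1 h3
  rw [show y * a + star y * a + (y * a - star y * a) = (2 : ℂ) • (y * a) by rw [two_smul]; abel,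
    show a * y + a * star y + (a * y - a * star y) = (2 : ℂ) • (a * y) by rw [two_smul]; abel]
    at this
  exact smul_right_injective (H →L[ℂ] H) two_ne_zero this

end Vale.Agent.P078
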