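import Vale.Agent.P078.Spectral
import Vale.Agent.P078.Colour

/-!
Strong-operator paving of diffuse MASAs when finite-rank projections are dense.
-/

namespace Vale.Agent.P078

open Filter Topology
open scoped InnerProductSpace

variable {H : Type} [NormedAddCommGroup H] [InnerProductSpace ℂ H] [CompleteSpace H]

theorem exists_colouring {K m r : ℕ} (hr : 0 < r) (c : Fin m → Fin m → Fin K → Fin K → ℂ) {T : ℝ}
    (hT : ∀ i j, ∑ k, ∑ l, ‖c i j k l‖ ^ 2 ≤ T) :
    ∃ σ : Fin K → Fin r, ∀ i j,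
      ‖∑ k, ∑ l, c i j k l * (dev σ k l : ℂ)‖ ^ 2 ≤ 2 * (m : ℝ) ^ 2 * T := by
  have : NeZero r := ⟨hr.ne'⟩
  set f : (Fin K → Fin r) → ℝ := fun σ => ∑ i, ∑ j, ‖∑ k, ∑ l, c i j k l * (dev σ k l : ℂ)‖ ^ 2
  have hsum : ∑ σ, f σ ≤ ∑ _σ : Fin K → Fin r, 2 * (m : ℝ) ^ 2 * T := by
    rw [Finset.sum_comm]
    simp only [Finset.sum_comm (γ := Fin K → Fin r)]
    refine (Finset.sum_le_sum fun i _ => Finset.sum_le_sum fun j _ => (sum_sq_dev_le hr (c i j)).trans
      (mul_le_mul_of_nonneg_left (hT i j) (by positivity))).trans (le_of_eq ?_)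
    simp
    ring
  obtain ⟨σ, -, hσ⟩ := Finset.exists_le_of_sum_le Finset.univ_nonempty hsum
  refine ⟨σ, fun i j => le_trans ?_ hσ⟩
  refine le_trans (Finset.single_le_sum (f := fun j => ‖∑ k, ∑ l, c i j k l * (dev σ k l : ℂ)‖ ^ 2)
    (fun j _ => sq_nonneg _) (Finset.mem_univ j)) ?_
  exact Finset.single_le_sum (f := fun i => ∑ j, ‖∑ k, ∑ l, c i j k l * (dev σ k l : ℂ)‖ ^ 2)
    (fun i _ => Finset.sum_nonneg fun j _ => sq_nonneg _) (Finset.mem_univ i)

theorem sum_entry_sq_le {A : VonNeumannAlgebra H} {K : ℕ} {e : Fin K → (H →L[ℂ] H)}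
    (he : IsPart A e) (x : H →L[ℂ] H) (u w : H) {η : ℝ} (hu : ∀ k, wt u (e k) ≤ η) :
    ∑ k, ∑ l, ‖⟪u, (e k * x * e l) w⟫_ℂ‖ ^ 2 ≤ η * (‖x‖ ^ 2 * ‖w‖ ^ 2) := by
  rw [Finset.sum_comm]
  rcases Nat.eq_zero_or_pos K with rfl | hK
  · have h := he.sum_norm_sq w
    simp at h
    simp [← h]
  have hη : 0 ≤ η := (wt_nonneg u (he.1 ⟨0, hK⟩).2).trans (hu _)
  rw [← he.sum_norm_sq w, Finset.mul_sum, Finset.mul_sum]
  refine Finset.sum_le_sum fun l _ => ?_
  set z := x (e l w)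
  calc ∑ k, ‖⟪u, (e k * x * e l) w⟫_ℂ‖ ^ 2 ≤ ∑ k, η * ‖e k z‖ ^ 2 := by
        refine Finset.sum_le_sum fun k _ => ?_
        have h : ⟪u, (e k * x * e l) w⟫_ℂ = ⟪e k u, e k z⟫_ℂ := by
          rw [← ContinuousLinearMap.adjoint_inner_right, ← ContinuousLinearMap.star_eq_adjoint,
            (he.1 k).2.isSelfAdjoint.star_eq, ← mul_apply_eq_comp (e k),
            (he.1 k).2.isIdempotentElem.eq]
          rfl
        rw [h]
        refine (pow_le_pow_left₀ (norm_nonneg _) (norm_inner_le_norm _ _) 2).trans ?_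
        rw [mul_pow, ← wt_eq u (he.1 k).2]
        exact mul_le_mul_of_nonneg_right (hu k) (sq_nonneg _)
    _ = η * ‖z‖ ^ 2 := by rw [← Finset.mul_sum, he.sum_norm_sq]
    _ ≤ η * (‖x‖ ^ 2 * ‖e l w‖ ^ 2) := by
        rw [← mul_pow]
        exact mul_le_mul_of_nonneg_left
          (pow_le_pow_left₀ (norm_nonneg _) (x.le_opNorm _) 2) hη

omit [CompleteSpace H] in
theorem norm_sandwich_le {m : ℕ} (b : Fin m → H) (hb : ∀ i, ‖b i‖ = 1) {q : H →L[ℂ] H}
    (hq : ∀ v, q v = ∑ i, ⟪b i, v⟫_ℂ • b i) (Z : H →L[ℂ] H) :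
    ‖q * Z * q‖ ≤ ∑ i, ∑ j, ‖⟪b i, Z (b j)⟫_ℂ‖ := by
  refine ContinuousLinearMap.opNorm_le_bound _
    (Finset.sum_nonneg fun i _ => Finset.sum_nonneg fun j _ => norm_nonneg _) fun v => ?_
  rw [mul_apply_eq_comp, mul_apply_eq_comp, hq (Z (q v)), Finset.sum_mul]
  refine (norm_sum_le _ _).trans (Finset.sum_le_sum fun i _ => ?_)
  rw [norm_smul, hb, mul_one, hq v, map_sum, inner_sum, Finset.sum_mul]
  refine (norm_sum_le _ _).trans (Finset.sum_le_sum fun j _ => ?_)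
  rw [map_smul, inner_smul_right, norm_mul, mul_comm]
  refine mul_le_mul_of_nonneg_left ?_ (norm_nonneg _)
  simpa [hb] using norm_inner_le_norm (𝕜 := ℂ) (b j) v

/-- The theorem. -/
theorem so_paving (M A : VonNeumannAlgebra H) (hAM : ∀ y ∈ A, y ∈ M)
    (hab : ∀ y ∈ A, ∀ z ∈ A, y * z = z * y)
    (hmax : ∀ y ∈ M, (∀ z ∈ A, z * y = y * z) → y ∈ A) (hd : Diffuse A)
    (hfin : ∀ (F : Finset H) (δ : ℝ), 0 < δ → ∃ q ∈ M, IsStarProjection q ∧
      FiniteDimensional ℂ q.range ∧ ∀ ξ ∈ F, ‖(1 - q) ξ‖ < δ)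
    {x : H →L[ℂ] H} (hxM : x ∈ M) (hx : IsSelfAdjoint x) {ε : ℝ} {r : ℕ} (hεr : 1 < ε * r)
    (F : Finset H) {δ : ℝ} (hδ : 0 < δ) :
    ∃ (P : Fin r → (H →L[ℂ] H)) (a q : H →L[ℂ] H),
      (∀ i, P i ∈ A ∧ IsStarProjection (P i)) ∧ (∀ i j, i ≠ j → P i * P j = 0) ∧ ∑ i, P i = 1 ∧
      a ∈ A ∧ IsSelfAdjoint a ∧ ‖a‖ ≤ ‖x‖ ∧
      q ∈ M ∧ IsStarProjection q ∧ (∀ ξ ∈ F, ‖(1 - q) ξ‖ < δ) ∧
      ‖q * ((∑ i, P i * x * P i) - a) * q‖ ≤ ε * ‖x‖ := by
  classical
  have hr : 0 < r := Nat.pos_of_ne_zero fun h => by subst h; simp at hεr; linarith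
  obtain ⟨q, hqM, hqP, hqfin, hqF⟩ := hfin F δ hδ
  rcases eq_or_ne x 0 with rfl | hx0
  · refine ⟨fun i => if i = ⟨0, hr⟩ then 1 else 0, 0, q, fun i => ?_, fun i j hij => ?_,
      by simp, zero_mem _, .zero _, by simp, hqM, hqP, hqF, by simp⟩
    · dsimp only
      split_ifs
      · exact ⟨one_mem _, .one _⟩
      · exact ⟨zero_mem _, .zero _⟩
    · dsimp only
      split_ifs with h1 h2 <;> simp_all
  have hxn : 0 < ‖x‖ := norm_pos_iff.2 hx0
  have hrpos : (0 : ℝ) < r := by exact_mod_cast hr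
  set γ : ℝ := (ε - (r : ℝ)⁻¹) * ‖x‖ with hγdef
  have hγ : 0 < γ := by
    refine mul_pos ?_ hxn
    rw [sub_pos, inv_lt_iff_one_lt_mul₀ hrpos]
    linarith
  -- orthonormal basis of the range of `q`
  obtain ⟨hHOP, hqK⟩ := isStarProjection_iff_eq_starProjection_range.1 hqP
  set bb := stdOrthonormalBasis ℂ q.range
  set m := Module.finrank ℂ q.range
  set b : Fin m → H := fun i => (bb i : H)
  have hb : ∀ i, ‖b i‖ = 1 := fun i => bb.orthonormal.norm_eq_one i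
  have hq : ∀ v, q v = ∑ i, ⟪b i, v⟫_ℂ • b i := by
    intro v
    have := congrArg Subtype.val (bb.sum_repr (q.range.orthogonalProjectionOnto v))
    conv_lhs => rw [hqK, Submodule.starProjection_apply, ← this]
    simp only [Submodule.coe_sum, Submodule.coe_smul]
    refine Finset.sum_congr rfl fun i _ => ?_
    rw [OrthonormalBasis.repr_apply_apply]
    congr 1
    exact (Submodule.inner_orthogonalProjectionOnto_eq_of_mem_left (bb i) v)
  -- the limit of fine pinchings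
  have hex : ∀ z : Finset (H →L[ℂ] H) × ℕ, ∃ (K : ℕ) (e : Fin K → (H →L[ℂ] H)), IsPart A e ∧
      (∀ i k, wt (b i) (e k) < 1 / ((z.2 : ℝ) + 1)) ∧
      ∀ f ∈ z.1, IsPr A f → ∀ k, e k * f = e k ∨ e k * f = 0 :=
    fun z => exists_compat hab hd (by positivity) b z.1
  choose Kz ez hez hezw hezc using hex
  set U : Ultrafilter (Finset (H →L[ℂ] H) × ℕ) := Ultrafilter.of atTop
  have hU : (U : Filter (Finset (H →L[ℂ] H) × ℕ)) ≤ atTop := Ultrafilter.of_le _
  obtain ⟨a, hanorm, halim⟩ := exists_weak_limit (fun z => pinch (ez z) x)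
    (fun z => (hez z).norm_pinch_le x) (norm_nonneg x) U
  have hcomm : ∀ y : H →L[ℂ] H,
      (∀ᶠ z in (U : Filter _), y * pinch (ez z) x = pinch (ez z) x * y) → y * a = a * y := by
    intro y hy
    refine ContinuousLinearMap.ext fun v => ext_inner_right ℂ fun w => ?_
    rw [mul_apply_eq_comp, mul_apply_eq_comp, ← ContinuousLinearMap.adjoint_inner_right]
    refine tendsto_nhds_unique (halim v _) ((halim (y v) w).congr' ?_)
    filter_upwards [hy] with z hz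
    rw [ContinuousLinearMap.adjoint_inner_right, ← mul_apply_eq_comp, ← hz, mul_apply_eq_comp]
  have hproj : ∀ f, IsPr A f → f * a = a * f := fun f hf => hcomm f (by
    filter_upwards [hU (eventually_ge_atTop ({f}, 0))] with z hz
    exact pinch_commute hab (hez z) x hf (hezc z f (hz.1 (Finset.mem_singleton_self f)) hf))
  have haM : a ∈ M := mem_of_forall_commute M fun y hy => hcomm y (Eventually.of_forall fun z =>
    (commutant_commute hy (sum_mem (t := Finset.univ)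
      fun k _ => mul_mem (mul_mem (hAM _ ((hez z).1 k).1) hxM) (hAM _ ((hez z).1 k).1))).symm)
  have haA : a ∈ A := hmax a haM fun z hz => commute_of_proj hab hproj hz
  have hasa : IsSelfAdjoint a := by
    refine ContinuousLinearMap.isSelfAdjoint_iff_isSymmetric.2 fun v w => ?_
    show ⟪a v, w⟫_ℂ = ⟪v, a w⟫_ℂ
    rw [← inner_conj_symm v (a w)]
    refine tendsto_nhds_unique (halim v w)
      ((Complex.continuous_conj.tendsto _).comp (halim w v) |>.congr fun z => ?_)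
    show starRingEnd ℂ ⟪pinch (ez z) x w, v⟫_ℂ = _
    rw [inner_conj_symm, ← ContinuousLinearMap.adjoint_inner_left,
      ← ContinuousLinearMap.star_eq_adjoint, (pinch_selfAdjoint (hez z) hx).star_eq]
  -- choose a fine partition
  set η₂ : ℝ := γ / (2 * ((m : ℝ) ^ 2 + 1)) with hη₂
  have hη₂pos : 0 < η₂ := by positivity
  have hev1 : ∀ᶠ z in (U : Filter _), ∀ i j,
      ‖⟪b i, pinch (ez z) x (b j)⟫_ℂ - ⟪b i, a (b j)⟫_ℂ‖ ≤ η₂ := by
    refine eventually_all.2 fun i => eventually_all.2 fun j => ?_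
    have h := ((Complex.continuous_conj.tendsto _).comp (halim (b j) (b i))).eventually
      (Metric.closedBall_mem_nhds _ hη₂pos)
    filter_upwards [h] with z hz
    simpa [dist_eq_norm] using hz
  obtain ⟨n, hn⟩ := exists_nat_gt (2 * (m : ℝ) ^ 2 * ‖x‖ ^ 2 / η₂ ^ 2)
  obtain ⟨z, hz1, hz2⟩ := (hev1.and (hU (eventually_ge_atTop (∅, n)))).exists
  set e := ez z
  have he : IsPart A e := hez z
  set c : Fin m → Fin m → Fin (Kz z) → Fin (Kz z) → ℂ :=
    fun i j k l => ⟪b i, (e k * x * e l) (b j)⟫_ℂ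
  have hT : ∀ i j, ∑ k, ∑ l, ‖c i j k l‖ ^ 2 ≤ 1 / ((n : ℝ) + 1) * ‖x‖ ^ 2 := by
    intro i j
    have hη : ∀ k, wt (b i) (e k) ≤ 1 / ((n : ℝ) + 1) := fun k =>
      ((hezw z i k).le).trans (one_div_le_one_div_of_le (by positivity) (by
        have := hz2.2; exact_mod_cast Nat.succ_le_succ this))
    have h := sum_entry_sq_le he x (b i) (b j) hη
    rwa [hb j, one_pow, mul_one] at h
  obtain ⟨σ, hσ⟩ := exists_colouring hr c hT
  have hσ' : ∀ i j, ‖∑ k, ∑ l, c i j k l * (dev σ k l : ℂ)‖ ≤ η₂ := by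
    intro i j
    refine le_of_sq_le_sq ((hσ i j).trans ?_) hη₂pos.le
    rw [div_lt_iff₀ (by positivity)] at hn
    rw [← mul_assoc, mul_one_div, div_mul_eq_mul_div, div_le_iff₀ (by positivity)]
    nlinarith [sq_nonneg η₂]
  set P : Fin r → (H →L[ℂ] H) := fun i => ∑ k with σ k = i, e k
  have hPmul : ∀ i i', P i * P i' = if i = i' then P i else 0 := by
    intro i i'
    simp only [P]
    rw [Finset.sum_mul]
    split_ifs with hii
    · subst hii
      refine Finset.sum_congr rfl fun k hk => ?_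
      rw [Finset.mul_sum, Finset.sum_eq_single_of_mem k hk fun l _ hl => he.2.1 k l (Ne.symm hl),
        (he.1 k).2.isIdempotentElem.eq]
    · refine Finset.sum_eq_zero fun k hk => ?_
      rw [Finset.mul_sum]
      refine Finset.sum_eq_zero fun l hl => he.2.1 k l fun h => hii ?_
      rw [← (Finset.mem_filter.1 hk).2, ← (Finset.mem_filter.1 hl).2, h]
  have hc0 : 0 ≤ 1 - (r : ℝ)⁻¹ := by
    rw [sub_nonneg]; exact inv_le_one_of_one_le₀ (by exact_mod_cast hr)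
  have hc1 : 1 - (r : ℝ)⁻¹ ≤ 1 := by
    rw [sub_le_self_iff]; positivity
  set Z : H →L[ℂ] H := (∑ i, P i * x * P i) - (1 - (r : ℝ)⁻¹) • a - (r : ℝ)⁻¹ • x with hZ
  have hS : ∀ u w : H, ⟪u, (∑ i, P i * x * P i) w⟫_ℂ =
      ∑ k, ∑ l, if σ k = σ l then ⟪u, (e k * x * e l) w⟫_ℂ else 0 := by
    intro u w
    have : ∑ i, P i * x * P i = ∑ k, ∑ l, if σ k = σ l then e k * x * e l else 0 := by
      simp only [P, Finset.sum_mul, Finset.mul_sum, Finset.sum_filter, ite_mul, mul_ite, zero_mul,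
        mul_zero]
      rw [Finset.sum_comm]
      conv_rhs => rw [Finset.sum_comm]
      refine Finset.sum_congr rfl fun y _ => ?_
      rw [Finset.sum_ite_eq, if_pos (Finset.mem_univ _)]
    rw [this, sum_apply, inner_sum]
    refine Finset.sum_congr rfl fun k _ => ?_
    rw [sum_apply, inner_sum]
    refine Finset.sum_congr rfl fun l _ => ?_
    split_ifs <;> simp
  have hentry : ∀ i j, ‖⟪b i, Z (b j)⟫_ℂ‖ ≤ 2 * η₂ := by
    intro i j
    have hx' : ⟪b i, x (b j)⟫_ℂ = ∑ k, ∑ l, c i j k l := by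
      have : x = ∑ k, ∑ l, e k * x * e l := by
        simp only [← Finset.mul_sum, he.2.2, mul_one, ← Finset.sum_mul, one_mul]
      conv_lhs => rw [this]
      simp only [sum_apply, inner_sum, c]
    have hp' : ⟪b i, pinch e x (b j)⟫_ℂ = ∑ k, c i j k k := by
      simp only [pinch, sum_apply, inner_sum, c]
    have hdev : ∑ k, ∑ l, c i j k l * (dev σ k l : ℂ) =
        ⟪b i, (∑ i, P i * x * P i) (b j)⟫_ℂ - ((r : ℝ)⁻¹ : ℂ) * ⟪b i, x (b j)⟫_ℂ -
          ((1 - (r : ℝ)⁻¹ : ℝ) : ℂ) * ⟪b i, pinch e x (b j)⟫_ℂ := by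
      rw [hS, hx', hp', Finset.mul_sum, Finset.mul_sum, ← Finset.sum_sub_distrib,
        ← Finset.sum_sub_distrib]
      refine Finset.sum_congr rfl fun k _ => ?_
      rw [Finset.mul_sum, ← Finset.sum_sub_distrib,
        show ((1 - (r : ℝ)⁻¹ : ℝ) : ℂ) * c i j k k =
          ∑ l, if k = l then ((1 - (r : ℝ)⁻¹ : ℝ) : ℂ) * c i j k l else 0 by simp,
        ← Finset.sum_sub_distrib]
      refine Finset.sum_congr rfl fun l _ => ?_
      by_cases hkl : k = l
      · subst hkl; simp [dev, meanI, c]; ring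
      · by_cases hs : σ k = σ l <;> simp [dev, meanI, c, hkl, hs] <;> ring
    have hZe : ⟪b i, Z (b j)⟫_ℂ = ∑ k, ∑ l, c i j k l * (dev σ k l : ℂ) +
        ((1 - (r : ℝ)⁻¹ : ℝ) : ℂ) *
          (⟪b i, pinch e x (b j)⟫_ℂ - ⟪b i, a (b j)⟫_ℂ) := by
      rw [hdev, hZ]
      simp only [sub_apply, smul_apply, inner_sub_right, RCLike.real_smul_eq_coe_smul (K := ℂ),
        inner_smul_right]
      push_cast
      ring
    rw [hZe]
    refine (norm_add_le _ _).trans ?_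
    rw [two_mul]
    refine add_le_add (hσ' i j) ?_
    rw [norm_mul, Complex.norm_real, Real.norm_eq_abs, abs_of_nonneg hc0]
    exact (mul_le_of_le_one_left (norm_nonneg _) hc1).trans (hz1 i j)
  refine ⟨P, (1 - (r : ℝ)⁻¹) • a, q, fun i => ⟨sum_mem fun k _ => ((he.1 k).1), ?_, ?_⟩,
    fun i j h => by simp [hPmul, h], ?_, ?_, ?_, ?_, hqM, hqP, hqF, ?_⟩
  · exact (hPmul i i).trans (if_pos rfl)
  · show star (P i) = P i
    simp only [P, star_sum, (he.1 _).2.isSelfAdjoint.star_eq]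
  · rw [show ∑ i, P i = ∑ k, e k from Finset.sum_fiberwise _ σ e, he.2.2]
  · rw [RCLike.real_smul_eq_coe_smul (K := ℂ)]
    exact A.toStarSubalgebra.smul_mem haA _
  · exact (IsSelfAdjoint.all _).smul hasa
  · rw [norm_smul, Real.norm_eq_abs, abs_of_nonneg hc0]
    exact (mul_le_of_le_one_left (norm_nonneg _) hc1).trans hanorm
  · have hsplit : q * ((∑ i, P i * x * P i) - (1 - (r : ℝ)⁻¹) • a) * q =
        q * Z * q + (r : ℝ)⁻¹ • (q * x * q) := by
      simp only [hZ, mul_sub, sub_mul, mul_smul_comm, smul_mul_assoc]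
      abel
    rw [hsplit]
    refine (norm_add_le _ _).trans ?_
    have h1 : ‖q * Z * q‖ ≤ γ := by
      refine (norm_sandwich_le b hb hq Z).trans ?_
      refine (Finset.sum_le_sum fun i _ => Finset.sum_le_sum fun j _ => hentry i j).trans ?_
      simp only [Finset.sum_const, Finset.card_univ, Fintype.card_fin, nsmul_eq_mul]
      rw [hη₂]
      have : 0 < (m : ℝ) ^ 2 + 1 := by positivity
      field_simp
      nlinarith
    have h2 : ‖(r : ℝ)⁻¹ • (q * x * q)‖ ≤ (r : ℝ)⁻¹ * ‖x‖ := by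
      rw [norm_smul, Real.norm_eq_abs, abs_of_nonneg (by positivity : (0 : ℝ) ≤ (r : ℝ)⁻¹)]
      refine mul_le_mul_of_nonneg_left ?_ (by positivity)
      calc ‖q * x * q‖ ≤ ‖q‖ * ‖x‖ * ‖q‖ :=
            (norm_mul_le _ _).trans (mul_le_mul_of_nonneg_right (norm_mul_le _ _) (norm_nonneg _))
        _ ≤ 1 * ‖x‖ * 1 := by
            have := hqP.norm_le
            gcongr
        _ = ‖x‖ := by ring
    calc _ ≤ γ + (r : ℝ)⁻¹ * ‖x‖ := add_le_add h1 h2
      _ = ε * ‖x‖ := by rw [hγdef]; ring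

end Vale.Agent.P078
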