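import Vale.Agent.P078.Proj

/-!
Finite partitions in the algebra, their pinchings, and limits of bounded families of operators.
-/

namespace Vale.Agent.P078

open Filter Topology
open scoped InnerProductSpace ComplexConjugate

variable {H : Type} [NormedAddCommGroup H] [InnerProductSpace ℂ H] [CompleteSpace H]

/-- A finite partition of the identity in the algebra. -/
def IsPart (A : VonNeumannAlgebra H) {K : ℕ} (e : Fin K → (H →L[ℂ] H)) : Prop :=
  (∀ k, IsPr A (e k)) ∧ (∀ k l, k ≠ l → e k * e l = 0) ∧ ∑ k, e k = 1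

variable {A : VonNeumannAlgebra H}

theorem IsPart.prod (hab : ∀ y ∈ A, ∀ z ∈ A, y * z = z * y) {K L : ℕ}
    {e : Fin K → (H →L[ℂ] H)} {f : Fin L → (H →L[ℂ] H)} (he : IsPart A e) (hf : IsPart A f) :
    IsPart A (fun k : Fin (K * L) => e (finProdFinEquiv.symm k).1 * f (finProdFinEquiv.symm k).2) := by
  refine ⟨fun k => isPr_mul hab (he.1 _) (hf.1 _), fun k l hkl => ?_, ?_⟩
  · set a := finProdFinEquiv.symm k
    set b := finProdFinEquiv.symm l
    have hne : a ≠ b := fun h => hkl (finProdFinEquiv.symm.injective h)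
    rw [mul_assoc, ← mul_assoc (f a.2), hab (f a.2) (hf.1 _).1 (e b.1) (he.1 _).1, ← mul_assoc,
      ← mul_assoc]
    by_cases h : a.1 = b.1
    · have h2 : a.2 ≠ b.2 := fun h2 => hne (Prod.ext h h2)
      rw [mul_assoc (e a.1 * e b.1), hf.2.1 _ _ h2, mul_zero]
    · rw [he.2.1 _ _ h, zero_mul, zero_mul]
  · calc ∑ k, e (finProdFinEquiv.symm k).1 * f (finProdFinEquiv.symm k).2
        = ∑ q : Fin K × Fin L, e q.1 * f q.2 :=
          Equiv.sum_comp finProdFinEquiv.symm (fun q : Fin K × Fin L => e q.1 * f q.2)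
      _ = 1 := by simp [Fintype.sum_prod_type, ← Finset.mul_sum, hf.2.2, he.2.2]

theorem wt_mul_le (hab : ∀ y ∈ A, ∀ z ∈ A, y * z = z * y) (ξ : H) {e g : H →L[ℂ] H}
    (he : IsPr A e) (hg : IsPr A g) : wt ξ (e * g) ≤ wt ξ g := by
  have h := wt_nonneg ξ (isPr_sub hab (isPr_mul hab he hg) hg
    (by rw [mul_assoc, hg.2.isIdempotentElem.eq])).2
  rw [wt_sub] at h
  linarith

/-- A partition fine for finitely many vectors and compatible with finitely many projections. -/
theorem exists_compat (hab : ∀ y ∈ A, ∀ z ∈ A, y * z = z * y) (hd : Diffuse A) {η : ℝ}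
    (hη : 0 < η) {m : ℕ} (b : Fin m → H) (s : Finset (H →L[ℂ] H)) :
    ∃ (K : ℕ) (e : Fin K → (H →L[ℂ] H)), IsPart A e ∧ (∀ i k, wt (b i) (e k) < η) ∧
      ∀ f ∈ s, IsPr A f → ∀ k, e k * f = e k ∨ e k * f = 0 := by
  have h1 : ∃ (K : ℕ) (e : Fin K → (H →L[ℂ] H)), IsPart A e ∧ ∀ i k, wt (b i) (e k) < η := by
    induction m with
    | zero =>
        exact ⟨1, fun _ => 1, ⟨fun _ => ⟨one_mem _, .one _⟩,
          fun k l h => absurd (Subsingleton.elim k l) h, by simp⟩, fun i => i.elim0⟩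
    | succ m ih =>
        obtain ⟨K, e, he, hew⟩ := ih (fun i => b i.succ)
        obtain ⟨L, g, hg1, hg2, hg3, hg4⟩ := exists_fine hab hd (b 0) hη
          (p := 1) ⟨one_mem _, .one _⟩
        refine ⟨_, _, he.prod hab ⟨hg1, hg2, hg3⟩, fun i k => ?_⟩
        induction i using Fin.cases with
        | zero => exact (wt_mul_le hab _ (he.1 _) (hg1 _)).trans_lt (hg4 _)
        | succ i =>
            refine lt_of_le_of_lt ?_ (hew i (finProdFinEquiv.symm k).1)
            rw [hab _ (he.1 _).1 _ (hg1 _).1]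
            exact wt_mul_le hab _ (hg1 _) (he.1 _)
  classical
  induction s using Finset.induction_on with
  | empty =>
      obtain ⟨K, e, he, hew⟩ := h1
      exact ⟨K, e, he, hew, by simp⟩
  | @insert f s hfs ih =>
      obtain ⟨K, e, he, hew, hes⟩ := ih
      by_cases hf : IsPr A f
      · have hg : IsPart A ![f, 1 - f] := by
          refine ⟨?_, ?_, by simp⟩
          · intro k; fin_cases k
            · exact hf
            · exact ⟨sub_mem (one_mem _) hf.1, hf.2.one_sub⟩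
          · intro k l h; fin_cases k <;> fin_cases l <;>
              first | exact absurd rfl h | simp [hf.2.mul_one_sub_self, hf.2.one_sub_mul_self]
        refine ⟨_, _, he.prod hab hg, fun i k => ?_, fun f' hf' hpr k => ?_⟩
        · refine lt_of_le_of_lt ?_ (hew i (finProdFinEquiv.symm k).1)
          rw [hab _ (he.1 _).1 _ (hg.1 _).1]
          exact wt_mul_le hab _ (hg.1 _) (he.1 _)
        · set a := finProdFinEquiv.symm k
          rcases Finset.mem_insert.1 hf' with rfl | hmem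
          · rw [mul_assoc]
            generalize a.2 = j
            fin_cases j
            · left; simp [hf.2.isIdempotentElem.eq]
            · right; simp [hf.2.one_sub_mul_self]
          · rw [mul_assoc, hab _ (hg.1 _).1 f' hpr.1, ← mul_assoc]
            rcases hes f' hmem hpr a.1 with h | h
            · left; rw [h]
            · right; rw [h, zero_mul]
      · refine ⟨K, e, he, hew, fun f' hf' hpr => ?_⟩
        rcases Finset.mem_insert.1 hf' with rfl | hmem
        · exact absurd hpr hf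
        · exact hes f' hmem hpr

/-- The pinching. -/
noncomputable def pinch {K : ℕ} (e : Fin K → (H →L[ℂ] H)) (x : H →L[ℂ] H) : H →L[ℂ] H :=
  ∑ k, e k * x * e k

theorem IsPart.norm_sum_sq {K : ℕ} {e : Fin K → (H →L[ℂ] H)} (he : IsPart A e) (u : Fin K → H) :
    ‖∑ k, e k (u k)‖ ^ 2 = ∑ k, ‖e k (u k)‖ ^ 2 := by
  have horth : ∀ k l, k ≠ l → ⟪e k (u k), e l (u l)⟫_ℂ = 0 := by
    intro k l h
    rw [← ContinuousLinearMap.adjoint_inner_right, ← ContinuousLinearMap.star_eq_adjoint,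
      (he.1 k).2.isSelfAdjoint.star_eq, ← mul_apply_eq_comp, he.2.1 k l h]
    simp
  rw [← Complex.ofReal_inj, Complex.ofReal_pow]
  rw [← Complex.coe_algebraMap, ← inner_self_eq_norm_sq_to_K, sum_inner]
  push_cast
  refine Finset.sum_congr rfl fun k _ => ?_
  rw [inner_sum, Finset.sum_eq_single k (fun l _ h => horth k l h.symm) (by simp),
    inner_self_eq_norm_sq_to_K]

theorem IsPart.sum_norm_sq {K : ℕ} {e : Fin K → (H →L[ℂ] H)} (he : IsPart A e) (v : H) :
    ∑ k, ‖e k v‖ ^ 2 = ‖v‖ ^ 2 := by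
  rw [← he.norm_sum_sq fun _ => v, ← sum_apply, he.2.2]
  rfl

theorem IsPart.norm_pinch_le {K : ℕ} {e : Fin K → (H →L[ℂ] H)} (he : IsPart A e)
    (x : H →L[ℂ] H) : ‖pinch e x‖ ≤ ‖x‖ := by
  refine ContinuousLinearMap.opNorm_le_bound _ (norm_nonneg _) fun v => ?_
  refine le_of_sq_le_sq ?_ (by positivity)
  rw [pinch, sum_apply]
  simp only [mul_apply_eq_comp]
  rw [he.norm_sum_sq fun k => x (e k v), mul_pow, ← he.sum_norm_sq v, Finset.mul_sum]
  refine Finset.sum_le_sum fun k _ => ?_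
  rw [← mul_pow]
  refine pow_le_pow_left₀ (norm_nonneg _) ?_ 2
  exact ((e k).le_of_opNorm_le ((he.1 k).2.norm_le) _).trans
    (by simpa using x.le_opNorm (e k v))

theorem pinch_commute (hab : ∀ y ∈ A, ∀ z ∈ A, y * z = z * y) {K : ℕ}
    {e : Fin K → (H →L[ℂ] H)} (he : IsPart A e) (x : H →L[ℂ] H) {f : H →L[ℂ] H} (hf : IsPr A f)
    (h : ∀ k, e k * f = e k ∨ e k * f = 0) : f * pinch e x = pinch e x * f := by
  rw [pinch, Finset.mul_sum, Finset.sum_mul]
  refine Finset.sum_congr rfl fun k _ => ?_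
  rw [mul_assoc (e k * x), ← mul_assoc f, ← mul_assoc f, hab f hf.1 (e k) (he.1 k).1]
  rcases h k with h' | h' <;> simp [h']

theorem pinch_selfAdjoint {K : ℕ} {e : Fin K → (H →L[ℂ] H)} (he : IsPart A e)
    {x : H →L[ℂ] H} (hx : IsSelfAdjoint x) : IsSelfAdjoint (pinch e x) := by
  show star (pinch e x) = pinch e x
  simp only [pinch, star_sum, star_mul, (he.1 _).2.isSelfAdjoint.star_eq, hx.star_eq, mul_assoc]

/-- Weak limits of bounded families along an ultrafilter. -/
theorem exists_weak_limit {ι : Type*} (T : ι → (H →L[ℂ] H)) {C : ℝ} (hC : ∀ i, ‖T i‖ ≤ C)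
    (hC0 : 0 ≤ C) (U : Ultrafilter ι) :
    ∃ a : H →L[ℂ] H, ‖a‖ ≤ C ∧ ∀ v w,
      Tendsto (fun i => ⟪T i v, w⟫_ℂ) (U : Filter ι) (𝓝 ⟪a v, w⟫_ℂ) := by
  have hb : ∀ v w : H, ∀ i, ‖⟪T i v, w⟫_ℂ‖ ≤ C * ‖v‖ * ‖w‖ := fun v w i =>
    (norm_inner_le_norm _ _).trans (mul_le_mul_of_nonneg_right ((T i).le_of_opNorm_le (hC i) v)
      (norm_nonneg _))
  have hL : ∀ v w : H, ∃ z : ℂ, ‖z‖ ≤ C * ‖v‖ * ‖w‖ ∧
      Tendsto (fun i => ⟪T i v, w⟫_ℂ) (U : Filter ι) (𝓝 z) := by
    intro v w
    obtain ⟨z, hz, hle⟩ := (isCompact_closedBall (0 : ℂ) (C * ‖v‖ * ‖w‖)).ultrafilter_le_nhds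
      (U.map fun i => ⟪T i v, w⟫_ℂ) (by
        simp only [Ultrafilter.coe_map, le_principal_iff, Filter.mem_map]
        exact Filter.univ_mem' fun i => mem_closedBall_zero_iff.2 (hb v w i))
    exact ⟨z, mem_closedBall_zero_iff.1 hz, hle⟩
  choose L hLb hLt using hL
  let B : H →ₗ⋆[ℂ] H →ₗ[ℂ] ℂ := LinearMap.mk₂'ₛₗ (starRingEnd ℂ) (RingHom.id ℂ) L
    (fun v v' w => tendsto_nhds_unique (hLt _ w) (((hLt v w).add (hLt v' w)).congr fun i => by
      simp))
    (fun c v w => tendsto_nhds_unique (hLt _ w) (((hLt v w).const_mul (conj c)).congr fun i => by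
      simp [mul_comm]))
    (fun v w w' => tendsto_nhds_unique (hLt v _) (((hLt v w).add (hLt v w')).congr fun i => by
      simp))
    (fun c v w => tendsto_nhds_unique (hLt v _) (((hLt v w).const_mul c).congr fun i => by
      simp))
  refine ⟨InnerProductSpace.continuousLinearMapOfBilin (B.mkContinuous₂ C fun v w => hLb v w), ?_,
    fun v w => ?_⟩
  · refine ContinuousLinearMap.opNorm_le_bound _ hC0 fun v => ?_
    set u := InnerProductSpace.continuousLinearMapOfBilin (B.mkContinuous₂ C fun v w => hLb v w) v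
    have h : ‖⟪u, u⟫_ℂ‖ ≤ C * ‖v‖ * ‖u‖ := by
      rw [InnerProductSpace.continuousLinearMapOfBilin_apply]
      exact hLb v u
    rw [inner_self_eq_norm_sq_to_K] at h
    simp only [norm_pow, RCLike.norm_ofReal, abs_norm] at h
    rcases (norm_nonneg u).eq_or_lt with h0 | h0
    · rw [← h0]; positivity
    · exact le_of_mul_le_mul_right (by rwa [← sq]) h0
  · rw [InnerProductSpace.continuousLinearMapOfBilin_apply]
    exact hLt v w

end Vale.Agent.P078
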