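import Mathlib

/-!
Projections of a von Neumann algebra as closed subspaces invariant under the commutant, and fine
partitions when there are no minimal projections.
-/

namespace Vale.Agent.P078

open Filter Topology
open scoped InnerProductSpace

variable {H : Type} [NormedAddCommGroup H] [InnerProductSpace ℂ H] [CompleteSpace H]

/-- A projection of the algebra. -/
def IsPr (A : VonNeumannAlgebra H) (e : H →L[ℂ] H) : Prop := e ∈ A ∧ IsStarProjection e

/-- No minimal projections. -/
def Diffuse (A : VonNeumannAlgebra H) : Prop :=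
  ∀ p, IsPr A p → p ≠ 0 → ∃ e, IsPr A e ∧ e * p = e ∧ e ≠ 0 ∧ e ≠ p

theorem mem_of_forall_commute (A : VonNeumannAlgebra H) {a : H →L[ℂ] H}
    (h : ∀ y ∈ A.commutant, y * a = a * y) : a ∈ A := by
  rw [← VonNeumannAlgebra.commutant_commutant A]
  exact VonNeumannAlgebra.mem_commutant_iff.2 h

theorem commutant_commute {A : VonNeumannAlgebra H} {y a : H →L[ℂ] H} (hy : y ∈ A.commutant)
    (ha : a ∈ A) : a * y = y * a :=
  VonNeumannAlgebra.mem_commutant_iff.1 hy a ha

theorem proj_mem (A : VonNeumannAlgebra H) (K : Submodule ℂ H) [K.HasOrthogonalProjection]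
    (h : ∀ y ∈ A.commutant, ∀ v ∈ K, y v ∈ K) : K.starProjection ∈ A := by
  rw [VonNeumannAlgebra.IsStarProjection.mem_iff isStarProjection_starProjection A]
  intro y hy
  rw [Submodule.range_starProjection]
  exact (Module.End.mem_invtSubmodule_iff_forall_mem_of_mem y.toLinearMap).2 (h y hy)

omit [CompleteSpace H] in
theorem closure_invariant {K : Submodule ℂ H} {y : H →L[ℂ] H} (h : ∀ v ∈ K, y v ∈ K) {v : H}
    (hv : v ∈ K.topologicalClosure) : y v ∈ K.topologicalClosure := by
  rw [← SetLike.mem_coe, Submodule.topologicalClosure_coe] at hv ⊢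
  exact map_mem_closure y.continuous hv h

/-- The weight of a projection at `ξ`. -/
noncomputable def wt (ξ : H) (e : H →L[ℂ] H) : ℝ := (⟪ξ, e ξ⟫_ℂ).re

theorem wt_eq (ξ : H) {e : H →L[ℂ] H} (he : IsStarProjection e) : wt ξ e = ‖e ξ‖ ^ 2 := by
  have h : ⟪e ξ, e ξ⟫_ℂ = ⟪ξ, e ξ⟫_ℂ := by
    conv_lhs => rw [← ContinuousLinearMap.adjoint_inner_right, ← ContinuousLinearMap.star_eq_adjoint,
      he.isSelfAdjoint.star_eq, ← mul_apply_eq_comp, he.isIdempotentElem.eq]
  rw [wt, ← h, inner_self_eq_norm_sq_to_K]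
  norm_cast

theorem wt_nonneg (ξ : H) {e : H →L[ℂ] H} (he : IsStarProjection e) : 0 ≤ wt ξ e := by
  rw [wt_eq ξ he]; positivity

omit [CompleteSpace H] in
theorem wt_add (ξ : H) (e f : H →L[ℂ] H) : wt ξ (e + f) = wt ξ e + wt ξ f := by
  simp [wt]

omit [CompleteSpace H] in
theorem wt_sub (ξ : H) (e f : H →L[ℂ] H) : wt ξ (e - f) = wt ξ e - wt ξ f := by
  simp [wt]

section algebra

variable {A : VonNeumannAlgebra H} (hab : ∀ y ∈ A, ∀ z ∈ A, y * z = z * y)
include hab

theorem isPr_mul {e f : H →L[ℂ] H} (he : IsPr A e) (hf : IsPr A f) : IsPr A (e * f) := by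
  refine ⟨mul_mem he.1 hf.1, ?_, ?_⟩
  · show e * f * (e * f) = e * f
    rw [mul_assoc, ← mul_assoc f e f, hab f hf.1 e he.1, mul_assoc e f f,
      hf.2.isIdempotentElem.eq, ← mul_assoc, he.2.isIdempotentElem.eq]
  · show star (e * f) = e * f
    rw [star_mul, he.2.isSelfAdjoint.star_eq, hf.2.isSelfAdjoint.star_eq, hab f hf.1 e he.1]

theorem isPr_sub {e p : H →L[ℂ] H} (he : IsPr A e) (hp : IsPr A p) (h : e * p = e) :
    IsPr A (p - e) := by
  have h' : p * e = e := by rw [hab p hp.1 e he.1, h]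
  refine ⟨sub_mem hp.1 he.1, ?_, hp.2.isSelfAdjoint.sub he.2.isSelfAdjoint⟩
  show (p - e) * (p - e) = p - e
  simp [sub_mul, mul_sub, h, h', hp.2.isIdempotentElem.eq, he.2.isIdempotentElem.eq]

omit hab in
theorem sub_mul_eq {e p : H →L[ℂ] H} (hp : IsPr A p) (h : e * p = e) :
    (p - e) * p = p - e := by
  rw [sub_mul, hp.2.isIdempotentElem.eq, h]

/-- Half of the weight. -/
theorem exists_half (hd : Diffuse A) (ξ : H) {p : H →L[ℂ] H} (hp : IsPr A p)
    (hpos : 0 < wt ξ p) : ∃ e, IsPr A e ∧ e * p = e ∧ 0 < wt ξ e ∧ wt ξ e ≤ wt ξ p / 2 := by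
  set K₀ : Submodule ℂ H := Submodule.span ℂ ((fun y : H →L[ℂ] H => y (p ξ)) '' ↑A.commutant)
  have hK₀ : ∀ z ∈ A.commutant, ∀ v ∈ K₀, z v ∈ K₀ := by
    intro z hz v hv
    induction hv using Submodule.span_induction with
    | mem x hx =>
        obtain ⟨y, hy, rfl⟩ := hx
        exact Submodule.subset_span ⟨z * y, mul_mem hz hy, rfl⟩
    | zero => simp
    | add x y _ _ hx hy => rw [map_add]; exact add_mem hx hy
    | smul c x _ hx => rw [map_smul]; exact K₀.smul_mem c hx
  set p' := K₀.topologicalClosure.starProjection with hp'def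
  have hp' : IsPr A p' :=
    ⟨proj_mem A _ fun y hy v hv => closure_invariant (hK₀ y hy) hv,
      isStarProjection_starProjection⟩
  have hsub : K₀.topologicalClosure ≤ p.toLinearMap.eqLocus LinearMap.id := by
    refine Submodule.topologicalClosure_minimal _ ?_ (isClosed_eq p.continuous continuous_id)
    rw [Submodule.span_le]
    rintro _ ⟨y, hy, rfl⟩
    show p (y (p ξ)) = y (p ξ)
    rw [← mul_apply_eq_comp, commutant_commute hy hp.1, mul_apply_eq_comp, ← mul_apply_eq_comp p p,
      hp.2.isIdempotentElem.eq]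
  have hpp' : p' * p = p' := by
    rw [← hab p hp.1 p' hp'.1]
    refine ContinuousLinearMap.ext fun v => ?_
    exact hsub (Submodule.starProjection_apply_mem _ v)
  have hmem : p ξ ∈ K₀.topologicalClosure :=
    K₀.le_topologicalClosure (Submodule.subset_span ⟨1, one_mem _, rfl⟩)
  have hw : p' ξ = p ξ := by
    have : p' (p ξ) = p ξ := Submodule.starProjection_eq_self_iff.2 hmem
    rwa [← mul_apply_eq_comp, hpp'] at this
  have hwt : wt ξ p' = wt ξ p := by rw [wt_eq ξ hp'.2, wt_eq ξ hp.2, hw]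
  have hne : p' ≠ 0 := by
    intro h0
    rw [h0] at hwt
    simp [wt] at hwt
    simp [wt] at hpos
    linarith
  have hfaith : ∀ e, IsPr A e → e * p' = e → wt ξ e = 0 → e = 0 := by
    intro e he hep h0
    have h1 : e ξ = 0 := by
      rw [wt_eq ξ he.2] at h0
      simpa using h0
    have hep' : e * p = e := by rw [← hep, mul_assoc, hpp']
    have hker : K₀.topologicalClosure ≤ LinearMap.ker e.toLinearMap := by
      refine Submodule.topologicalClosure_minimal _ ?_ e.isClosed_ker
      rw [Submodule.span_le]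
      rintro _ ⟨y, hy, rfl⟩
      show e (y (p ξ)) = 0
      rw [← mul_apply_eq_comp, commutant_commute hy he.1, mul_apply_eq_comp,
        ← mul_apply_eq_comp e p, hep', h1, map_zero]
    rw [← hep]
    exact ContinuousLinearMap.ext fun v => hker (Submodule.starProjection_apply_mem _ v)
  obtain ⟨e, he, hep, he0, hne'⟩ := hd p' hp' hne
  have hf := isPr_sub hab he hp' hep
  have hepp : e * p = e := by rw [← hep, mul_assoc, hpp']
  have hfpp : (p' - e) * p = p' - e := by rw [sub_mul, hpp', hepp]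
  have e1 : 0 < wt ξ e :=
    lt_of_le_of_ne (wt_nonneg ξ he.2) fun h => he0 (hfaith e he hep h.symm)
  have e2 : 0 < wt ξ (p' - e) :=
    lt_of_le_of_ne (wt_nonneg ξ hf.2) fun h => hne' (sub_eq_zero.1
      (hfaith _ hf (sub_mul_eq hp' hep) h.symm)).symm
  have e3 : wt ξ (p' - e) + wt ξ e = wt ξ p := by rw [wt_sub, hwt]; ring
  rcases le_total (wt ξ e) (wt ξ (p' - e)) with h | h
  · exact ⟨e, he, hepp, e1, by linarith⟩
  · exact ⟨p' - e, hf, hfpp, e2, by linarith⟩

/-- Arbitrarily small positive weight. -/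
theorem exists_small (hd : Diffuse A) (ξ : H) {p : H →L[ℂ] H} (hp : IsPr A p)
    (hpos : 0 < wt ξ p) {η : ℝ} (hη : 0 < η) :
    ∃ e, IsPr A e ∧ e * p = e ∧ 0 < wt ξ e ∧ wt ξ e < η := by
  have key : ∀ n : ℕ, ∃ e, IsPr A e ∧ e * p = e ∧ 0 < wt ξ e ∧ wt ξ e ≤ wt ξ p / 2 ^ n := by
    intro n
    induction n with
    | zero => exact ⟨p, hp, hp.2.isIdempotentElem.eq, hpos, by simp⟩
    | succ n ih =>
        obtain ⟨e, he, hep, h0, hle⟩ := ih
        obtain ⟨f, hf, hfe, hf0, hfle⟩ := exists_half hab hd ξ he h0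
        refine ⟨f, hf, by rw [← hfe, mul_assoc, hep], hf0, hfle.trans ?_⟩
        rw [pow_succ, ← div_div]
        linarith
  obtain ⟨n, hn⟩ := pow_unbounded_of_one_lt (wt ξ p / η) (one_lt_two : (1 : ℝ) < 2)
  obtain ⟨e, he, hep, h0, hle⟩ := key n
  refine ⟨e, he, hep, h0, hle.trans_lt ?_⟩
  rw [div_lt_iff₀ (by positivity)]
  rw [div_lt_iff₀ hη] at hn
  linarith

theorem mul_le_range {u v : H →L[ℂ] H} (hu : IsPr A u) (hv : IsPr A v) (h : u * v = u) :
    u.range ≤ v.range := by
  rintro _ ⟨w, rfl⟩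
  refine ⟨u w, ?_⟩
  show v (u w) = u w
  rw [← mul_apply_eq_comp, hab v hv.1 u hu.1, h]

/-- A piece of weight between `η / 2` and `η`. -/
theorem exists_chunk (hd : Diffuse A) (ξ : H) {p : H →L[ℂ] H} (hp : IsPr A p) {η : ℝ}
    (hη : 0 < η) (hle : η ≤ wt ξ p) :
    ∃ e, IsPr A e ∧ e * p = e ∧ η / 2 ≤ wt ξ e ∧ wt ξ e < η := by
  by_contra hno
  push Not at hno
  have small : ∀ e, IsPr A e → e * p = e → wt ξ e < η → wt ξ e < η / 2 := by
    intro e he hep h
    by_contra h'
    push Not at h'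
    exact absurd (hno e he hep h') (not_le.2 h)
  set S : Set ℝ := {t | ∃ e, IsPr A e ∧ e * p = e ∧ wt ξ e < η ∧ t = wt ξ e}
  have hS0 : (0 : ℝ) ∈ S :=
    ⟨0, ⟨zero_mem _, .zero _⟩, by simp, by simpa [wt] using hη, by simp [wt]⟩
  have hSb : BddAbove S := ⟨η, fun t ⟨_, _, _, h, ht⟩ => ht ▸ h.le⟩
  obtain ⟨t, -, htend, htS⟩ := exists_seq_tendsto_sSup ⟨0, hS0⟩ hSb
  choose e he hep helt hte using htS
  have join : ∀ u v, IsPr A u → u * p = u → wt ξ u < η → IsPr A v → v * p = v → wt ξ v < η →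
      ∃ w, IsPr A w ∧ w * p = w ∧ wt ξ w < η ∧ u * w = u ∧ v * w = v ∧ wt ξ v ≤ wt ξ w := by
    intro u v hu hup hult hv hvp hvlt
    have h1 : (v * u) * u = v * u := by rw [mul_assoc, hu.2.isIdempotentElem.eq]
    have h2 : IsPr A (v * u) := isPr_mul hab hv hu
    have h3 : (v * u) * v = v * u := by
      rw [hab v hv.1 u hu.1, mul_assoc, hv.2.isIdempotentElem.eq]
    have h4 : IsPr A (v - v * u) := isPr_sub hab h2 hv h3
    have h5 : u * (v - v * u) = 0 := by
      rw [mul_sub, hab v hv.1 u hu.1, ← mul_assoc, hu.2.isIdempotentElem.eq, sub_self]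
    have h6 : (v - v * u) * u = 0 := by rw [hab _ h4.1 u hu.1, h5]
    have hw : IsPr A (u + (v - v * u)) := by
      refine ⟨add_mem hu.1 h4.1, ?_, hu.2.isSelfAdjoint.add h4.2.isSelfAdjoint⟩
      show (u + (v - v * u)) * (u + (v - v * u)) = u + (v - v * u)
      rw [add_mul, mul_add, mul_add, h5, h6, hu.2.isIdempotentElem.eq,
        h4.2.isIdempotentElem.eq, add_zero, zero_add]
    have h7 : wt ξ (v * u) ≤ wt ξ u := by
      have := wt_nonneg ξ (isPr_sub hab h2 hu h1).2
      rw [wt_sub] at this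
      linarith
    have h8 := small u hu hup hult
    have h9 := small v hv hvp hvlt
    refine ⟨_, hw, ?_, ?_, ?_, ?_, ?_⟩
    · rw [add_mul, hup, sub_mul, hvp, mul_assoc, hup]
    · rw [wt_add, wt_sub]
      linarith [wt_nonneg ξ h2.2]
    · rw [mul_add, hu.2.isIdempotentElem.eq, h5, add_zero]
    · rw [mul_add, mul_sub, hv.2.isIdempotentElem.eq, ← mul_assoc, hv.2.isIdempotentElem.eq]
      abel
    · rw [wt_add, wt_sub]
      linarith
  choose J hJ using join
  let us : ℕ → {u : H →L[ℂ] H // IsPr A u ∧ u * p = u ∧ wt ξ u < η} := fun n =>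
    Nat.rec ⟨e 0, he 0, hep 0, helt 0⟩ (fun k u =>
      ⟨J u.1 (e (k + 1)) u.2.1 u.2.2.1 u.2.2.2 (he _) (hep _) (helt _),
        (hJ _ _ _ _ _ _ _ _).1, (hJ _ _ _ _ _ _ _ _).2.1, (hJ _ _ _ _ _ _ _ _).2.2.1⟩) n
  have hmono : ∀ n, (us n).1 * (us (n + 1)).1 = (us n).1 := fun n => (hJ _ _ _ _ _ _ _ _).2.2.2.1
  have hge : ∀ n, t n ≤ wt ξ (us n).1 := by
    intro n
    cases n with
    | zero => exact le_of_eq (hte 0)
    | succ n => exact (hte (n + 1)).trans_le (hJ _ _ _ _ _ _ _ _).2.2.2.2.2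
  let U : ℕ → Submodule ℂ H := fun n => (us n).1.range
  have hU : ∀ n, ∃ _ : (U n).HasOrthogonalProjection, (us n).1 = (U n).starProjection := fun n =>
    isStarProjection_iff_eq_starProjection_range.1 (us n).2.1.2
  have : ∀ n, (U n).HasOrthogonalProjection := fun n => (hU n).fst
  have hUm : Monotone U :=
    monotone_nat_of_le_succ fun n => mul_le_range hab (us n).2.1 (us (n + 1)).2.1 (hmono n)
  set K := (⨆ n, U n).topologicalClosure with hK
  have hUinv : ∀ y ∈ A.commutant, ∀ v ∈ (⨆ n, U n), y v ∈ ⨆ n, U n := by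
    intro y hy v hv
    rw [Submodule.mem_iSup_of_directed _ hUm.directed_le] at hv ⊢
    obtain ⟨n, w, rfl⟩ := hv
    refine ⟨n, y w, ?_⟩
    show (us n).1 (y w) = y ((us n).1 w)
    rw [← mul_apply_eq_comp, commutant_commute hy (us n).2.1.1, mul_apply_eq_comp]
  have hus : IsPr A K.starProjection :=
    ⟨proj_mem A K fun y hy v hv => closure_invariant (hUinv y hy) hv,
      isStarProjection_starProjection⟩
  set w := K.starProjection with hwdef
  have hwp : w * p = w := by
    rw [← hab p hp.1 w hus.1]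
    refine ContinuousLinearMap.ext fun v => ?_
    have : K ≤ p.toLinearMap.eqLocus LinearMap.id := by
      refine Submodule.topologicalClosure_minimal _ (iSup_le fun n => ?_)
        (isClosed_eq p.continuous continuous_id)
      rintro _ ⟨x, rfl⟩
      show p ((us n).1 x) = (us n).1 x
      rw [← mul_apply_eq_comp, hab p hp.1 _ (us n).2.1.1, (us n).2.2.1]
    exact this (K.starProjection_apply_mem v)
  have hlim : Tendsto (fun n => wt ξ (us n).1) atTop (𝓝 (wt ξ w)) := by
    have h1 := Submodule.starProjection_tendsto_closure_iSup U hUm ξ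
    have h2 := (h1.norm).pow 2
    rw [wt_eq ξ hus.2]
    refine h2.congr fun n => ?_
    rw [wt_eq ξ (us n).2.1.2, (hU n).snd]
  have hwle : wt ξ w ≤ η / 2 :=
    le_of_tendsto' hlim fun n => (small _ (us n).2.1 (us n).2.2.1 (us n).2.2.2).le
  have hSle : sSup S ≤ wt ξ w := le_of_tendsto_of_tendsto' htend hlim hge
  have hrem := isPr_sub hab hus hp hwp
  have hrpos : 0 < wt ξ (p - w) := by rw [wt_sub]; linarith
  obtain ⟨d, hd1, hd2, hd3, hd4⟩ := exists_small hab hd ξ hrem hrpos (half_pos hη)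
  have hdw : d * w = 0 := by
    rw [← hd2, mul_assoc, sub_mul, hab p hp.1 w hus.1, hwp, hus.2.isIdempotentElem.eq, sub_self,
      mul_zero]
  have hwd : w * d = 0 := by rw [hab w hus.1 d hd1.1, hdw]
  have hsum : IsPr A (w + d) := by
    refine ⟨add_mem hus.1 hd1.1, ?_, hus.2.isSelfAdjoint.add hd1.2.isSelfAdjoint⟩
    show (w + d) * (w + d) = w + d
    rw [add_mul, mul_add, mul_add, hdw, hwd, hus.2.isIdempotentElem.eq,
      hd1.2.isIdempotentElem.eq, add_zero, zero_add]
  have hsp : (w + d) * p = w + d := by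
    rw [add_mul, hwp]
    congr 1
    rw [← hd2, mul_assoc, sub_mul_eq hp hwp]
  have hmem : wt ξ (w + d) ∈ S := ⟨_, hsum, hsp, by rw [wt_add]; linarith, rfl⟩
  have := le_csSup hSb hmem
  rw [wt_add] at this
  linarith

/-- Finite partitions in `A` of `p` with small weights. -/
theorem exists_fine (hd : Diffuse A) (ξ : H) {η : ℝ} (hη : 0 < η) {p : H →L[ℂ] H}
    (hp : IsPr A p) :
    ∃ (K : ℕ) (e : Fin K → (H →L[ℂ] H)), (∀ k, IsPr A (e k)) ∧
      (∀ k l, k ≠ l → e k * e l = 0) ∧ ∑ k, e k = p ∧ ∀ k, wt ξ (e k) < η := by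
  obtain ⟨n, hn⟩ := exists_nat_gt (wt ξ p / (η / 2))
  have hn' : wt ξ p < n * (η / 2) + η := by
    rw [div_lt_iff₀ (half_pos hη)] at hn
    linarith
  clear hn
  induction n generalizing p with
  | zero =>
      refine ⟨1, fun _ => p, fun _ => hp, fun k l h => absurd (Subsingleton.elim k l) h,
        by simp, fun _ => by simpa using hn'⟩
  | succ n ih =>
      rcases lt_or_ge (wt ξ p) η with hlt | hge
      · exact ⟨1, fun _ => p, fun _ => hp, fun k l h => absurd (Subsingleton.elim k l) h,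
          by simp, fun _ => hlt⟩
      · obtain ⟨e, he, hep, he1, he2⟩ := exists_chunk hab hd ξ hp hη hge
        have hf := isPr_sub hab he hp hep
        obtain ⟨K, f, hf1, hf2, hf3, hf4⟩ := ih hf (by rw [wt_sub]; push_cast at hn'; linarith)
        have hpe : (p - e) * e = 0 := by
          rw [sub_mul, hab p hp.1 e he.1, hep, he.2.isIdempotentElem.eq, sub_self]
        have hfe : ∀ k, f k * e = 0 := by
          intro k
          have : f k * (p - e) = f k := by
            rw [← hf3, Finset.mul_sum, Finset.sum_eq_single k (fun l _ h => hf2 k l h.symm)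
              (by simp), (hf1 k).2.isIdempotentElem.eq]
          rw [← this, mul_assoc, hpe, mul_zero]
        refine ⟨K + 1, Fin.cons e f, Fin.cases he hf1, ?_, ?_, Fin.cases he2 hf4⟩
        · intro k l hkl
          induction k using Fin.cases with
          | zero =>
              induction l using Fin.cases with
              | zero => exact absurd rfl hkl
              | succ l => simp [hab e he.1 _ (hf1 l).1, hfe l]
          | succ k =>
              induction l using Fin.cases with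
              | zero => simp [hfe k]
              | succ l => simpa using hf2 k l fun h => hkl (by rw [h])
        · simp [Fin.sum_univ_succ, hf3]

end algebra

end Vale.Agent.P078
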